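import Vale.Agent.P251EJ.DefsS

/-!
# P251EJ, row FIN: the unstable form of Serre's theorem from the coinvariants theorem
-/

open CategoryTheory MonoidalCategory Limits Pretriangulated Set Topology OnePoint

universe v u

noncomputable section

namespace Vale.Agent.P251EJ43

open Vale.Agent.P251 Vale.Agent.P251.T Vale.Agent.P251.G Vale.Agent.P251.G.LC
  Vale.Agent.P251.I Vale.Agent.P251EJ

variable {T : Type u} [Category.{v} T] [Preadditive T] [HasZeroObject T]
    [HasShift T ℤ] [∀ n : ℤ, (shiftFunctor T n).Additive] [Pretriangulated T]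
    [MonoidalCategory T] [SymmetricCategory T] [TensorTriangulated T] (F : SpaceFunctor T)

section

variable {X Y Z : Type} [TopologicalSpace X] [CompactSpace X] [T2Space X] [TopologicalSpace Y]
  [CompactSpace Y] [T2Space Y] [TopologicalSpace Z] [CompactSpace Z] [T2Space Z]
  (hX : FC (LC.of X)) (hY : FC (LC.of Y)) (hZ : FC (LC.of Z))

theorem Sm_comp (f : C(X, Y)) (g : C(Y, Z)) :
    Sm F hX hY f ≫ Sm F hY hZ g = Sm F hX hZ (g.comp f) := by
  unfold Sm
  rw [← F.S.map_comp]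
  congr 1
  apply ObjectProperty.hom_ext
  exact LC.hom_ext fun x => rfl

theorem Sm_toSph {n : ℕ} (f : C(X, Y)) (g : C(Y, Sp n)) :
    Sm F hX hY f ≫ F.S.map (toSph hY g) = F.S.map (toSph hX (g.comp f)) := by
  unfold Sm
  rw [← F.S.map_comp]
  congr 1
  apply ObjectProperty.hom_ext
  exact LC.hom_ext fun x => rfl

theorem Sm_homotopic {f g : C(X, Y)} (h : f.Homotopic g) : Sm F hX hY f = Sm F hX hY g := by
  obtain ⟨H⟩ := h
  refine F.map_eq _ _ ⟨ofCompact (X := LC.of (X × unitInterval)) (Y := LC.of Y)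
    (fun p => H (p.2, p.1)) (H.continuous.comp continuous_swap), ?_, ?_⟩
  · refine LC.hom_ext fun x => ?_
    exact congrArg (fun y : Y => (y : OnePoint Y)) (H.map_zero_left x)
  · refine LC.hom_ext fun x => ?_
    exact congrArg (fun y : Y => (y : OnePoint Y)) (H.map_one_left x)

end

theorem finS : FinS F := by
  intro hcov hB hChi hSym hCell hNull hPlus k n hn hnk f
  obtain ⟨M, hM⟩ := hNull k n hn hnk (Hom.toMap f.hom) (Hom.map_infty f.hom)
  obtain ⟨Z, _, _, _, q, hq, hqe⟩ := hSym (M + 1) (Sp n)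
  obtain ⟨C, hCq, hCa⟩ := hCell hB hChi n (M + 1) Z q hq hqe
  obtain ⟨hY, hZ, hc⟩ := hcov _ _ _ C
  obtain ⟨h1, hk, hP⟩ := hPlus k
  obtain ⟨z, hz⟩ := hM Z q fun σ y => ((hqe y (y ∘ σ)).2 ⟨σ, rfl⟩).symm
  let pr : Fin (M + 1) → C(Fin (M + 1) → Sp n, Sp n) := fun j => ⟨fun y => y j, continuous_apply j⟩
  obtain ⟨m, b, hm, hb⟩ := hc.surj (F.S.obj (SphF n)) (∑ j, F.S.map (toSph hY (pr j))) fun σ => by
    rw [Preadditive.comp_sum, ← Equiv.sum_comp σ fun j => F.S.map (toSph hY (pr j))]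
    refine Finset.sum_congr rfl fun j _ => ?_
    rw [Sm_toSph]
    congr 2
    ext y
    exact congrFun (hCa σ y) j
  refine ⟨m, hm, hP _ _ (Sm F h1 hZ (ContinuousMap.const _ z) ≫ b -
    m • ∑ _j : Fin M, F.S.map (toSph h1 (ContinuousMap.const _ ∞))) ?_⟩
  have e1 : Sm F hk hY ((inc0 M n).comp (Hom.toMap f.hom)) ≫ Sm F hY hZ C.q =
      Sm F hk h1 (ContinuousMap.const _ ()) ≫ Sm F h1 hZ (ContinuousMap.const _ z) := by
    rw [Sm_comp, Sm_comp, hCq]
    exact Sm_homotopic F hk hZ hz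
  have e0 : Sm F hk hY ((inc0 M n).comp (Hom.toMap f.hom)) ≫ F.S.map (toSph hY (pr 0)) =
      F.S.map (toSph hk (ContinuousMap.id _)) ≫ F.S.map f := by
    rw [Sm_toSph, ← F.S.map_comp]
    congr 1
    apply ObjectProperty.hom_ext
    exact LC.hom_ext fun x => Function.update_self (0 : Fin (M + 1)) _ (fun _ => (∞ : Sp n))
  have es : ∀ j : Fin M, Sm F hk hY ((inc0 M n).comp (Hom.toMap f.hom)) ≫
      F.S.map (toSph hY (pr j.succ)) = Sm F hk h1 (ContinuousMap.const _ ()) ≫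
        F.S.map (toSph h1 (ContinuousMap.const _ ∞)) := fun j => by
    rw [Sm_toSph, Sm_toSph]
    congr 2
  rw [Preadditive.comp_sub, ← Category.assoc, ← e1, Category.assoc, hb, Preadditive.comp_zsmul,
    Preadditive.comp_zsmul, Preadditive.comp_zsmul, ← zsmul_sub, Preadditive.comp_sum,
    Preadditive.comp_sum, Fin.sum_univ_succ, e0, Finset.sum_congr rfl fun j _ => es j,
    add_sub_cancel_right]

end Vale.Agent.P251EJ43
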